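import Vale.Agent.P256.Bdl.B1

open Vale.Agent.P256

/-- Let `p` be hyperbolic with respect to `e`, and let `K(p,e)` be a finite intersection of
preimages under linear maps `A` of hyperbolicity cones `K(q, A e)` of nice polynomials `q` (for
example let `p` be the product of finitely many `q ∘ A`).  Then `K(p,e)` is a spectrahedral
shadow. -/
theorem Vale.Agent.Results.P256.CleanStrataInter.result :
    ∀ (n : ℕ) (p : MvPolynomial (Fin n) ℝ) (e : Fin n → ℝ), IsHyperbolic p e →
      InterNice e (hypCone p e) → IsSpectrahedralShadow (hypCone p e) :=
  fun _ _ _ _ h => h.shad.shadow
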